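import Mathlib

/-! # P113: from recursively enumerable predicates to finite one-tape machines -/

namespace Vale.Agent.P113.R2.H928

open Turing StateTransition

/-- The first `m` with `n ≤ 2 ^ m`, followed by a semi-decision of `p m`. -/
theorem partrec_log (p : ℕ → Prop) (hp : REPred p) :
    Partrec fun n : ℕ => (Nat.rfind fun m => Part.some (decide (n ≤ 2 ^ m))).bind
      fun m => (Part.assert (p m) fun _ => Part.some ()).map fun _ => (0 : ℕ) := by
  have h1 : Computable₂ fun (n m : ℕ) => decide (n ≤ 2 ^ m) := by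
    have hpow : Primrec fun m : ℕ => 2 ^ m := by
      have : Primrec fun m : ℕ => (Nat.rec 1 (fun _ r => 2 * r) m : ℕ) :=
        Primrec.nat_rec₁ 1 ((Primrec.nat_mul.comp (Primrec.const 2) Primrec.snd).to₂)
      refine this.of_eq fun m => ?_
      induction m with
      | zero => rfl
      | succ m ih => simp only [pow_succ]; rw [← ih]; ring
    have h2 : PrimrecRel fun (n m : ℕ) => n ≤ 2 ^ m :=
      Primrec.nat_le.comp₂ Primrec.fst.to₂ ((hpow.comp Primrec.snd).to₂)
    exact h2.decide.to_comp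
  have h2 : Partrec fun n : ℕ => Nat.rfind fun m => Part.some (decide (n ≤ 2 ^ m)) :=
    Partrec.rfind (p := fun n m => Part.some (decide (n ≤ 2 ^ m))) h1.partrec₂
  have h3 : Partrec fun m : ℕ =>
      (Part.assert (p m) fun _ => Part.some ()).map fun _ => (0 : ℕ) :=
    Partrec.map hp (Computable.const 0).to₂
  exact Partrec.bind h2 ((h3.comp Computable.snd).to₂)

theorem rfind_log (m : ℕ) :
    (Nat.rfind fun k => Part.some (decide (2 ^ m ≤ 2 ^ k))) = Part.some m := by
  refine Part.eq_some_iff.2 (Nat.mem_rfind.2 ⟨by simp, fun {k} hk => ?_⟩)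
  have : ¬ 2 ^ m ≤ 2 ^ k := by
    rw [not_le]; exact Nat.pow_lt_pow_right (by norm_num) hk
  simp [this]

theorem dom_log (p : ℕ → Prop) (m : ℕ) :
    ((Nat.rfind fun k => Part.some (decide (2 ^ m ≤ 2 ^ k))).bind
      fun m => (Part.assert (p m) fun _ => Part.some ()).map fun _ => (0 : ℕ)).Dom ↔ p m := by
  rw [rfind_log, Part.bind_some]
  simp [Part.assert]

/-- A program which halts on `2 ^ m` if and only if `p m`. -/
theorem exists_code (p : ℕ → Prop) (hp : REPred p) :
    ∃ c : ToPartrec.Code, ∀ m : ℕ, (c.eval [2 ^ m]).Dom ↔ p m := by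
  obtain ⟨c, hc⟩ := ToPartrec.Code.exists_code (Nat.Partrec'.part_iff₁.2 (partrec_log p hp))
  refine ⟨c, fun m => ?_⟩
  have h := hc (List.Vector.cons (2 ^ m) List.Vector.nil)
  have h' : c.eval [2 ^ m] = _ := h
  rw [h']
  rw [← dom_log p m]
  rfl

section Chain

open PartrecToTM2

theorem trNum_two_pow (m : ℕ) :
    trNum ((2 ^ m : ℕ) : Num) = List.replicate m Γ'.bit0 ++ [Γ'.bit1] := by
  induction m with
  | zero => rfl
  | succ m ih =>
    have h : ((2 ^ (m + 1) : ℕ) : Num) = Num.bit0 ((2 ^ m : ℕ) : Num) := by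
      rw [pow_succ, mul_two, Nat.cast_add, Num.bit0_of_bit0]
    rw [h]
    cases hn : ((2 ^ m : ℕ) : Num) with
    | zero =>
      rw [hn] at ih
      simp [trNum] at ih
    | pos n =>
      rw [hn] at ih
      simp only [Num.bit0, trNum, trPosNum]
      rw [List.replicate_succ, List.cons_append, ← ih]
      rfl

theorem trList_two_pow (m : ℕ) :
    trList [2 ^ m] = List.replicate m Γ'.bit0 ++ [Γ'.bit1, Γ'.cons] := by
  simp only [trList, trNat, trNum_two_pow, List.append_assoc, List.cons_append, List.nil_append]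

theorem tm2_dom (c : ToPartrec.Code) (v : List ℕ) :
    (@TM2.eval K' (fun _ => Γ') Λ' (Option Γ') ⟨trNormal c Cont'.halt⟩ _ _ tr K'.main
      (trList v)).Dom ↔ (c.eval v).Dom := by
  have h : @TM2.init K' (fun _ => Γ') Λ' (Option Γ') ⟨trNormal c Cont'.halt⟩ _ _ K'.main
      (trList v) = PartrecToTM2.init c v := by
    unfold TM2.init PartrecToTM2.init
    congr 1
    funext k
    cases k <;> rfl
  unfold TM2.eval
  rw [h]
  have h2 := PartrecToTM2.tr_eval c v
  rw [Part.map_Dom, h2]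
  simp

/-- Restriction of a machine to a finite set of states which is closed under its steps. -/
theorem exists_restrict {Γ Λ : Type} [Inhabited Γ] [Inhabited Λ] (M : TM0.Machine Γ Λ)
    (S : Finset Λ) (hS : TM0.Supports M (S : Set Λ)) :
    ∃ (Λ₁ : Type) (_ : Inhabited Λ₁) (_ : Fintype Λ₁) (M₁ : TM0.Machine Γ Λ₁),
      ∀ l : List Γ, (TM0.eval M₁ l).Dom ↔ (TM0.eval M l).Dom := by
  classical
  let d : {q // q ∈ S} := ⟨default, hS.1⟩
  let _ : Inhabited {q // q ∈ S} := ⟨d⟩
  let g : PointedMap Λ {q // q ∈ S} := ⟨fun q => if h : q ∈ S then ⟨q, h⟩ else d, by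
    have h : (default : Λ) ∈ S := hS.1
    rw [dif_pos h]
    rfl⟩
  let i : PointedMap Γ Γ := ⟨id, rfl⟩
  refine ⟨{q // q ∈ S}, inferInstance, inferInstance, M.map i i g Subtype.val, fun l => ?_⟩
  have hr := TM0.Machine.map_respects M i i g Subtype.val hS (fun _ => rfl) (fun q hq => by
    have hq' : q ∈ S := hq
    show ((if h : q ∈ S then (⟨q, h⟩ : {q // q ∈ S}) else d) : {q // q ∈ S}).1 = q
    rw [dif_pos hq'])
  have hinit : (TM0.Cfg.map i g (TM0.init l) : TM0.Cfg Γ {q // q ∈ S}) = TM0.init l := by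
    rw [TM0.map_init]
    congr 1
    exact List.map_id l
  have hdom := StateTransition.tr_eval_dom hr (a₁ := TM0.init l) (a₂ := TM0.init l)
    ⟨hS.1, hinit⟩
  unfold TM0.eval
  rw [Part.map_Dom, Part.map_Dom]
  exact hdom

theorem finite_K' : Finite K' := by
  refine Finite.of_injective (β := Fin 4) (fun k => match k with
    | K'.main => 0 | K'.rev => 1 | K'.aux => 2 | K'.stack => 3) ?_
  intro a b h
  cases a <;> cases b <;> simp_all

/-- Recursively enumerable predicates are the halting sets of finite one-tape machines. -/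
theorem exists_TM0 (p : ℕ → Prop) (hp : REPred p) :
    ∃ (Γ : Type) (_ : Inhabited Γ) (_ : Fintype Γ) (Λ : Type) (_ : Inhabited Λ) (_ : Fintype Λ)
      (M : TM0.Machine Γ Λ) (c0 c1 c2 : Γ),
      ∀ m : ℕ, (TM0.eval M (c0 :: c1 :: List.replicate m c2)).Dom ↔ p m := by
  classical
  obtain ⟨c, hc⟩ := exists_code p hp
  have _ : Finite K' := finite_K'
  let _ : Fintype K' := Fintype.ofFinite K'
  let _ : Inhabited Λ' := ⟨trNormal c Cont'.halt⟩
  let M₂ : Λ' → TM2.Stmt (fun _ : K' => Γ') Λ' (Option Γ') := tr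
  have hs : TM2.Supports M₂ (codeSupp c Cont'.halt) := PartrecToTM2.tr_supports c Cont'.halt
  have hs1 := TM2to1.tr_supports M₂ hs
  have hs0 := TM1to0.tr_supports (TM2to1.tr M₂) hs1
  obtain ⟨Λ₁, i1, i2, M₁, h₁⟩ := exists_restrict _ _ hs0
  let f : Γ' → TM2to1.Γ' K' fun _ => Γ' := fun a =>
    (false, Function.update (fun _ => none) K'.main (some a))
  refine ⟨TM2to1.Γ' K' fun _ => Γ', inferInstance, inferInstance, Λ₁, i1, i2, M₁,
    (true, (f Γ'.cons).2), f Γ'.bit1, f Γ'.bit0, fun m => ?_⟩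
  have e : ((true, (f Γ'.cons).2) :: f Γ'.bit1 :: List.replicate m (f Γ'.bit0) :
      List (TM2to1.Γ' K' fun _ => Γ')) = TM2to1.trInit K'.main (trList [2 ^ m]) := by
    rw [trList_two_pow]
    have hr : (List.replicate m Γ'.bit0 ++ [Γ'.bit1, Γ'.cons]).reverse =
        Γ'.cons :: Γ'.bit1 :: List.replicate m Γ'.bit0 := by simp
    unfold TM2to1.trInit
    rw [hr]
    have hm : List.map f (Γ'.cons :: Γ'.bit1 :: List.replicate m Γ'.bit0) =
        f Γ'.cons :: f Γ'.bit1 :: List.replicate m (f Γ'.bit0) := by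
      rw [List.map_cons, List.map_cons, List.map_replicate]
    change _ = ((true, (List.map f _).headI.2) :: (List.map f _).tail : List _)
    rw [hm]
    rfl
  have e2 := (h₁ ((true, (f Γ'.cons).2) :: f Γ'.bit1 :: List.replicate m (f Γ'.bit0)))
  rw [e] at e2 ⊢
  refine e2.trans ?_
  rw [TM1to0.tr_eval]
  refine (TM2to1.tr_eval_dom M₂ K'.main (trList [2 ^ m])).trans ?_
  exact (tm2_dom c [2 ^ m]).trans (hc m)

end Chain

end Vale.Agent.P113.R2.H928
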