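import Vale.Agent.P113.R2.Defs

/-! # P113: the force compiler -/

namespace Vale.Agent.P113.R2.H928

open Vale.Agent.P113

/-- The only bump of the transient term: `s ↦ ρ'(8 s - 1)`. -/
def trBump : Bump := ⟨0, ⟨8, 0⟩, ⟨1, 0⟩, .inl 1⟩

/-- The transient term with the rational coefficient `k / (d B ^ m)`. -/
def trTerm (k : ℤ) (d B m : ℕ) : Term :=
  ⟨⟨k, d * B ^ m - 1⟩, 0, -1, [], [(false, trBump)], fun _ => []⟩

/-- The compiler: constant lists of periodic terms, and one transient term. -/
def compiler (L : Fin 3 → List Term) (k : ℤ) (d B : ℕ) (M : Machine) (w : List ℕ) :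
    Fin 3 → List Term :=
  fun i => L i ++ if i = 1 then [trTerm k d B (Encodable.encode (M, w))] else []

theorem primrec_pow (B : ℕ) : Primrec fun m : ℕ => B ^ m := by
  have : Primrec fun m : ℕ => (Nat.rec 1 (fun _ r => B * r) m : ℕ) :=
    Primrec.nat_rec₁ 1 ((Primrec.nat_mul.comp (Primrec.const B) Primrec.snd).to₂)
  refine this.of_eq fun m => ?_
  induction m with
  | zero => rfl
  | succ m ih => simp only [pow_succ]; rw [← ih]; ring

theorem primrec_trTerm (k : ℤ) (d B : ℕ) : Primrec (trTerm k d B) := by
  have h1 : Primrec fun m : ℕ => (⟨k, d * B ^ m - 1⟩ : Rt) := by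
    have h : Primrec fun m : ℕ => ((k, d * B ^ m - 1) : ℤ × ℕ) :=
      (Primrec.const k).pair (Primrec.nat_sub.comp
        (Primrec.nat_mul.comp (Primrec.const d) (primrec_pow B)) (Primrec.const 1))
    exact (Primrec.of_equiv_symm (e := Rt.equiv)).comp h
  have h2 : Primrec fun m : ℕ =>
      ((⟨k, d * B ^ m - 1⟩, 0, -1, [], [(false, trBump)], fun _ => []) :
        Rt × ℕ × ℤ × List Rt × List (Bool × Bump) × (Fin 3 → List Bump)) :=
    h1.pair (Primrec.const _)
  exact (Primrec.of_equiv_symm (e := Term.equiv)).comp h2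

theorem compiler_computable (L : Fin 3 → List Term) (k : ℤ) (d B : ℕ) :
    Computable₂ (compiler L k d B) := by
  have h : Primrec fun z : Machine × List ℕ => compiler L k d B z.1 z.2 := by
    have h0 : ∀ i : Fin 3, Primrec fun z : Machine × List ℕ => compiler L k d B z.1 z.2 i := by
      intro i
      refine Primrec.list_append.comp (Primrec.const (L i)) ?_
      by_cases hi : i = 1
      · simp only [if_pos hi]
        exact Primrec.list_cons.comp ((primrec_trTerm k d B).comp Primrec.encode)
          (Primrec.const [])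
      · simp only [if_neg hi]
        exact Primrec.const []
    have h1 : Primrec₂ fun (i : Fin 3) (z : Machine × List ℕ) => compiler L k d B z.1 z.2 i :=
      Primrec.fin_curry₁.2 h0
    exact Primrec.fin_curry.2 h1.swap
  exact h.to_comp

theorem trTerm_valid (k : ℤ) (d B m : ℕ) : (trTerm k d B m).Valid := by
  refine ⟨by simp [trTerm], ?_, by simp [trTerm]⟩
  intro g hg
  simp only [trTerm, List.mem_singleton] at hg
  subst hg
  refine ⟨by norm_num [trBump, Rt.val], ?_⟩
  intro l hl
  simp [trBump] at hl

theorem trTerm_not_periodic (k : ℤ) (d B m : ℕ) : (trTerm k d B m).isPeriodic = false := by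
  simp [trTerm, Term.isPeriodic]

/-- The function given by the transient term. -/
theorem trTerm_eval (k : ℤ) {d B : ℕ} (hd : 0 < d) (hB : 0 < B) (m : ℕ) (ν t : ℝ)
    (x : Fin 3 → ℝ) :
    (trTerm k d B m).eval ν t x = (k : ℝ) / (d * B ^ m) * kappa⁻¹ * deriv rho (8 * t - 1) := by
  have h1 : 1 ≤ d * B ^ m := Nat.succ_le_of_lt (Nat.mul_pos hd (pow_pos hB m))
  have h2 : (((d * B ^ m - 1 : ℕ) : ℝ) + 1) = d * B ^ m := by
    rw [Nat.cast_sub h1]; push_cast; ring
  simp only [Term.eval, trTerm, timeFactor, trBump, Bump.eval, Rt.val, List.map_nil,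
    List.prod_nil, List.map_cons, List.prod_cons, iteratedDeriv_one]
  push_cast
  rw [h2]
  simp

theorem compiler_valid {L : Fin 3 → List Term} (hL : ∀ i, ∀ τ ∈ L i, τ.Valid)
    (k : ℤ) (d B : ℕ) (M : Machine) (w : List ℕ) (i : Fin 3) :
    ∀ τ ∈ compiler L k d B M w i, τ.Valid := by
  intro τ hτ
  rcases List.mem_append.1 hτ with h | h
  · exact hL i τ h
  · split_ifs at h
    · rw [List.mem_singleton.1 h]
      exact trTerm_valid _ _ _ _
    · simp at h

/-- The compiler is a force compiler. -/
theorem compiler_isForceCompiler {L : Fin 3 → List Term}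
    (hL : ∀ i, ∀ τ ∈ L i, τ.Valid ∧ τ.isPeriodic = true) (k : ℤ) {d B : ℕ} (hd : 0 < d)
    (hB : 0 < B) (hrho : ∀ s, 1 ≤ |s| → deriv rho s = 0) :
    IsForceCompiler (compiler L k d B) where
  computable := compiler_computable L k d B
  valid M w i τ hτ := compiler_valid (fun i τ h => (hL i τ h).1) k d B M w i τ hτ
  vanish := by
    refine ⟨1, fun M w i τ hτ hp ν t ht x => ?_⟩
    rcases List.mem_append.1 hτ with h | h
    · rw [(hL i τ h).2] at hp
      exact absurd hp (by simp)
    · split_ifs at h
      · rw [List.mem_singleton.1 h, trTerm_eval k hd hB, hrho, mul_zero]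
        rw [abs_of_nonneg (by linarith)]
        linarith
      · simp at h
  periodic := by
    intro M w w' i
    have key : ∀ w, (compiler L k d B M w i).filter Term.isPeriodic = L i := by
      intro w
      unfold compiler
      rw [List.filter_append, List.filter_eq_self.2 fun τ h => (hL i τ h).2]
      split_ifs
      · rw [List.filter_singleton, trTerm_not_periodic]
        simp
      · simp
    rw [key, key]

/-- The force of the compiler. -/
theorem field_compiler {L : Fin 3 → List Term} (k : ℤ) {d B : ℕ} (hd : 0 < d) (hB : 0 < B)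
    (M : Machine) (w : List ℕ) (ν t : ℝ) (x : Fin 3 → ℝ) (i : Fin 3) :
    field ν (compiler L k d B M w) t x i = ((L i).map fun τ => τ.eval ν t x).sum +
      if i = 1 then (k : ℝ) / (d * B ^ (Encodable.encode (M, w))) * kappa⁻¹ *
        deriv rho (8 * t - 1) else 0 := by
  unfold field compiler
  rw [List.map_append, List.sum_append]
  congr 1
  split_ifs
  · rw [List.map_cons, List.map_nil, List.sum_cons, List.sum_nil, add_zero,
      trTerm_eval k hd hB]
  · simp

end Vale.Agent.P113.R2.H928
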