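import Vale.Agent.P113.R2.Defs

/-! # P113: uniqueness of trajectories of smooth fields -/

namespace Vale.Agent.P113.R2.H928

open Set Vale.Agent.P113

theorem trajectory_unique {u : ℝ → (Fin 3 → ℝ) → (Fin 3 → ℝ)}
    (hu : ContDiff ℝ (⊤ : ℕ∞) fun z : ℝ × (Fin 3 → ℝ) => u z.1 z.2) {a : Fin 3 → ℝ}
    {X Y : ℝ → (Fin 3 → ℝ)} (hX : IsTrajectory u a X) (hY : IsTrajectory u a Y) :
    ∀ t ∈ Ici (0 : ℝ), Y t = X t := by
  intro T hT
  rcases (mem_Ici.1 hT).eq_or_lt with rfl | hT0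
  · rw [hX.1, hY.1]
  have cX : ContinuousOn X (Icc 0 T) := fun t ht =>
    ((hX.2 t ht.1).continuousWithinAt).mono Icc_subset_Ici_self
  have cY : ContinuousOn Y (Icc 0 T) := fun t ht =>
    ((hY.2 t ht.1).continuousWithinAt).mono Icc_subset_Ici_self
  obtain ⟨R₁, h₁⟩ := (isCompact_Icc.image_of_continuousOn cX).isBounded.subset_closedBall 0
  obtain ⟨R₂, h₂⟩ := (isCompact_Icc.image_of_continuousOn cY).isBounded.subset_closedBall 0
  let R := max R₁ R₂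
  have hc : Convex ℝ (Icc 0 T ×ˢ Metric.closedBall (0 : Fin 3 → ℝ) R) :=
    (convex_Icc 0 T).prod (convex_closedBall 0 R)
  have hk : IsCompact (Icc 0 T ×ˢ Metric.closedBall (0 : Fin 3 → ℝ) R) :=
    isCompact_Icc.prod (isCompact_closedBall 0 R)
  obtain ⟨K, hK⟩ := (hu.contDiffOn (s := Icc 0 T ×ˢ Metric.closedBall (0 : Fin 3 → ℝ) R)
    ).exists_lipschitzOnWith (by simp) hc hk
  have hL : ∀ t ∈ Ico 0 T, LipschitzOnWith K (u t) (Metric.closedBall (0 : Fin 3 → ℝ) R) := by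
    intro t ht x hx y hy
    have h := hK (x := (t, x)) ⟨⟨ht.1, ht.2.le⟩, hx⟩ (y := (t, y)) ⟨⟨ht.1, ht.2.le⟩, hy⟩
    simpa [Prod.edist_eq] using h
  have key := ODE_solution_unique_of_mem_Icc_right (v := u)
    (s := fun _ => Metric.closedBall (0 : Fin 3 → ℝ) R) (K := K) hL cY
    (fun t ht => (hY.2 t ht.1).mono (Ici_subset_Ici.2 ht.1))
    (fun t ht => Metric.closedBall_subset_closedBall (le_max_right _ _)
      (h₂ ⟨t, ⟨ht.1, ht.2.le⟩, rfl⟩)) cX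
    (fun t ht => (hX.2 t ht.1).mono (Ici_subset_Ici.2 ht.1))
    (fun t ht => Metric.closedBall_subset_closedBall (le_max_left _ _)
      (h₁ ⟨t, ⟨ht.1, ht.2.le⟩, rfl⟩)) (by rw [hX.1, hY.1])
  exact key ⟨hT0.le, le_rfl⟩

end Vale.Agent.P113.R2.H928
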