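import Vale.Agent.P113.R2.Defs
import Vale.Agent.P113.R2.H928.Chain
import Vale.Agent.P113.R2.H796.Sys

/-! # P113: from the halting set to a system of rational pieces -/

namespace Vale.Agent.P113.R2.H928

open Vale.Agent.P113 Vale.Agent.P113.R2.H796

theorem rePred_decode {α : Type} [Primcodable α] {h : α → Prop} (hh : REPred h) :
    REPred fun n : ℕ => ∃ z ∈ (Encodable.decode n : Option α), h z := by
  have h1 : Partrec fun n : ℕ => (((Encodable.decode n : Option α) : Part α)).bind
      fun z => Part.assert (h z) fun _ => Part.some () :=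
    Partrec.bind (Computable.ofOption Computable.decode) ((Partrec.comp hh Computable.snd).to₂)
  refine Partrec.of_eq h1 fun n => ?_
  ext u
  cases hn : (Encodable.decode n : Option α) with
  | none => simp [hn]
  | some z => simp [hn]

/-- The halting problem is coded by the orbits of a good system of rational pieces. -/
theorem discrete_halting (h : REPred fun z : Machine × List ℕ => z.1.HaltsOn z.2) :
    ∃ (N : ℕ) (P : Fin N → Piece) (x₀ y₀ K : ℚ) (B : ℕ), Good P ∧ 2 ≤ B ∧
      ∀ (M : Machine) (w : List ℕ), ∃ x y : ℕ → ℚ, x 0 = x₀ ∧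
        y 0 = y₀ + K / (B : ℚ) ^ (Encodable.encode (M, w)) ∧ IsOrbit P x y ∧
        (Stops P x y ↔ M.HaltsOn w) := by
  obtain ⟨Γ, i1, i2, Λ, i3, i4, M₀, c0, c1, c2, hM⟩ := exists_TM0 _ (rePred_decode h)
  obtain ⟨N, P, x₀, y₀, K, B, hP, hB, hd⟩ := discrete_of_tm0 M₀ default c0 c1 c2
  refine ⟨N, P, x₀, y₀, K, B, hP, hB, fun M w => ?_⟩
  obtain ⟨x, y, hx, hy, ho, hs⟩ := hd (Encodable.encode (M, w))
  refine ⟨x, y, hx, hy, ho, hs.trans ?_⟩
  have h2 := hM (Encodable.encode (M, w))
  rw [Turing.TM0.eval, Part.map_Dom] at h2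
  refine h2.trans ?_
  simp

end Vale.Agent.P113.R2.H928
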